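import Vale.Agent.P371.Defs

/-!
# P371: definitions for a general exponent, scalar potentials
-/

namespace Vale.Agent.P371.Gamma

open MeasureTheory

/-- A scalar potential for the exponent `p`: nonnegative, measurable, with integrable `W^p`. -/
def IsPotentialP (p : ℝ) (W : ℝ → ℝ) : Prop :=
  Measurable W ∧ (∀ x, 0 ≤ W x) ∧ Integrable (fun x => W x ^ p)

/-- All ratios of `∑ |μ_i|^γ` (finite orthonormal families of eigenfunctions with negative
eigenvalues) to `∫ W^(γ+1/2)`. -/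
def ratios (γ : ℝ) : Set ℝ :=
  {r | ∃ (W : ℝ → ℝ) (N : ℕ) (μ : Fin N → ℝ) (ψ : Fin N → ℝ → ℂ),
    IsPotentialP (γ + 1 / 2) W ∧ 0 < (∫ x, W x ^ (γ + 1 / 2)) ∧ IsBoundStates W μ ψ ∧
      r = (∑ i, |μ i| ^ γ) / ∫ x, W x ^ (γ + 1 / 2)}

/-- The one-bound-state constant. -/
noncomputable def oneState (γ : ℝ) : ℝ :=
  2 * ((γ - 1 / 2) / (γ + 1 / 2)) ^ (γ - 1 / 2) *
    (Real.Gamma (γ + 1) / (2 * √Real.pi * Real.Gamma (γ + 3 / 2)))

end Vale.Agent.P371.Gamma
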