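import Vale.Agent.P371.H1
import Vale.Agent.P371.Gamma.Defs

/-!
# P371: the potential term of the form
-/

namespace Vale.Agent.P371.Gamma

open MeasureTheory Filter Vale.Agent.P371

lemma le_rpow_add_one {p w : ℝ} (hp : 1 ≤ p) (hw : 0 ≤ w) : w ≤ w ^ p + 1 := by
  rcases le_total w 1 with h | h
  · have := Real.rpow_nonneg hw p; linarith
  · have := Real.self_le_rpow_of_one_le h hp; linarith

lemma IsPotentialP.integrable_mul {p : ℝ} (hp : 1 ≤ p) {W : ℝ → ℝ} (hW : IsPotentialP p W)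
    {φ dφ ψ dψ : ℝ → ℂ} (h : MemH1 φ dφ) (h' : MemH1 ψ dψ) :
    Integrable (fun x => (W x : ℂ) * (starRingEnd ℂ (φ x) * ψ x)) := by
  obtain ⟨A, hA⟩ := h.exists_bound
  obtain ⟨B, hB⟩ := h'.exists_bound
  refine ((hW.2.2.const_mul (A ^ 2 + B ^ 2)).add (h.integrable_normSq.add h'.integrable_normSq)).mono'
    ?_ (Eventually.of_forall fun x => ?_)
  · exact ((Complex.continuous_ofReal.measurable.comp hW.1).mul
      ((Complex.continuous_conj.comp h.continuous).mul h'.continuous).measurable).aestronglyMeasurable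
  · rw [norm_mul, norm_mul, Complex.norm_real, RCLike.norm_conj, Real.norm_eq_abs,
      abs_of_nonneg (hW.2.1 x)]
    have w0 := hW.2.1 x
    have r0 := Real.rpow_nonneg w0 p
    have a2 : ‖φ x‖ ^ 2 ≤ A ^ 2 := pow_le_pow_left₀ (norm_nonneg _) (hA x) 2
    have b2 : ‖ψ x‖ ^ 2 ≤ B ^ 2 := pow_le_pow_left₀ (norm_nonneg _) (hB x) 2
    simp only [Pi.add_apply]
    set s := ‖φ x‖ ^ 2 + ‖ψ x‖ ^ 2
    have hprod : ‖φ x‖ * ‖ψ x‖ ≤ s := by
      have := sq_nonneg (‖φ x‖ - ‖ψ x‖)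
      have := mul_nonneg (norm_nonneg (φ x)) (norm_nonneg (ψ x))
      nlinarith
    calc W x * (‖φ x‖ * ‖ψ x‖) ≤ W x * s := mul_le_mul_of_nonneg_left hprod w0
      _ ≤ (W x ^ p + 1) * s :=
          mul_le_mul_of_nonneg_right (le_rpow_add_one hp w0) (by positivity)
      _ ≤ _ := by
          have := mul_le_mul_of_nonneg_left (add_le_add a2 b2) r0
          linarith

end Vale.Agent.P371.Gamma
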