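import Vale.Agent.P371.H1

/-!
# P371: integration by parts against an H¹ function
-/

namespace Vale.Agent.P371.Gamma

open Real MeasureTheory Filter Topology Vale.Agent.P371

lemma parts_real {f g v dv : ℝ → ℝ} {a b : ℝ} (hg : IntervalIntegrable g volume a b)
    (hf : ∀ x, f x = f a + ∫ t in a..x, g t) (hv : ∀ x, HasDerivAt v (dv x) x)
    (hdv : Continuous dv) :
    ∫ x in a..b, g x * v x + f x * dv x = f b * v b - f a * v a := by
  have hfa : AbsolutelyContinuousOnInterval f a b := by
    have h1 := hg.absolutelyContinuousOnInterval_intervalIntegral (c := a) Set.left_mem_uIcc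
    have h2 : AbsolutelyContinuousOnInterval (fun _ : ℝ => f a) a b :=
      LipschitzOnWith.absolutelyContinuousOnInterval (K := 0)
        (LipschitzWith.const (f a)).lipschitzOnWith
    have e : f = fun x => f a + ∫ t in a..x, g t := funext hf
    rw [e]
    simpa using h2.fun_add h1
  have hva : AbsolutelyContinuousOnInterval v a b := by
    have h1 := (hdv.intervalIntegrable (μ := volume) a b).absolutelyContinuousOnInterval_intervalIntegral
      (c := a) Set.left_mem_uIcc
    have h2 : AbsolutelyContinuousOnInterval (fun _ : ℝ => v a) a b :=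
      LipschitzOnWith.absolutelyContinuousOnInterval (K := 0)
        (LipschitzWith.const (v a)).lipschitzOnWith
    have e : v = fun x => v a + ∫ t in a..x, dv t := funext fun x => by
      rw [intervalIntegral.integral_eq_sub_of_hasDerivAt (fun t _ => hv t)
        (hdv.intervalIntegrable a x), add_sub_cancel]
    rw [e]
    exact h2.fun_add h1
  rw [← hfa.integral_deriv_mul_eq_sub hva]
  refine intervalIntegral.integral_congr_ae ?_
  filter_upwards [hg.ae_hasDerivAt_integral] with x hx hx'
  have hd : HasDerivAt f (g x) x := by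
    have := (hx (Set.uIoc_subset_uIcc hx') a Set.left_mem_uIcc).const_add (f a)
    rwa [← funext hf] at this
  rw [hd.deriv, (hv x).deriv]

lemma parts_H1 {f g : ℝ → ℂ} (h : MemH1 f g) {v dv : ℝ → ℝ}
    (hv : ∀ x, HasDerivAt v (dv x) x) (hdv : Continuous dv) (a b : ℝ) :
    ∫ x in a..b, g x * (v x : ℂ) + f x * (dv x : ℂ) = f b * (v b : ℂ) - f a * (v a : ℂ) := by
  have hgi : ∀ a b, IntervalIntegrable g volume a b := fun a b => by
    rw [intervalIntegrable_iff]
    exact (h.2.1.locallyIntegrable (by norm_num)).integrableOn_isCompact isCompact_uIcc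
      |>.mono_set Set.uIoc_subset_uIcc
  have hfc : Continuous f := h.continuous
  have hvc : Continuous v := continuous_iff_continuousAt.2 fun x => (hv x).continuousAt
  have hi : IntervalIntegrable (fun x => g x * (v x : ℂ) + f x * (dv x : ℂ)) volume a b :=
    ((hgi a b).mul_continuousOn (Complex.continuous_ofReal.comp hvc).continuousOn).add
      ((hfc.mul (Complex.continuous_ofReal.comp hdv)).intervalIntegrable a b)
  have key : ∀ L : ℂ →L[ℝ] ℝ, L (∫ x in a..b, g x * (v x : ℂ) + f x * (dv x : ℂ))
      = L (f b * (v b : ℂ) - f a * (v a : ℂ)) := by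
    intro L
    have hmul : ∀ (z : ℂ) (r : ℝ), L (z * (r : ℂ)) = L z * r := fun z r => by
      rw [mul_comm z, ← Complex.real_smul, map_smul, smul_eq_mul, mul_comm]
    rw [← L.intervalIntegral_comp_comm hi, map_sub, hmul, hmul]
    simp only [map_add, hmul]
    refine parts_real (f := fun x => L (f x)) (g := fun x => L (g x))
      ⟨L.integrable_comp (hgi a b).1, L.integrable_comp (hgi a b).2⟩ (fun x => ?_) hv hdv
    rw [L.intervalIntegral_comp_comm (hgi a x), h.2.2, map_sub, add_sub_cancel]
  exact Complex.ext (key Complex.reCLM) (key Complex.imCLM)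

end Vale.Agent.P371.Gamma
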