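import Vale.Agent.P371.Gamma.Sech
import Vale.Agent.P371.Gamma.Parts
import Vale.Agent.P371.Gamma.Form

/-!
# P371: the one bound state attains `oneState γ`
-/

namespace Vale.Agent.P371.Gamma

open Real MeasureTheory Filter Topology Vale.Agent.P371

lemma oneState_eq {γ : ℝ} (hγ : 1 / 2 < γ) :
    oneState γ = ((γ - 1 / 2) ^ 2) ^ γ / (((γ - 1 / 2) * (γ + 1 / 2)) ^ (γ + 1 / 2) *
      (√π * Gamma (γ + 1 / 2) / Gamma (γ + 1))) := by
  rw [oneState, show γ + 3 / 2 = γ + 1 / 2 + 1 by ring,
    Gamma_add_one (by linarith : γ + 1 / 2 ≠ 0)]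
  obtain ⟨ν, hν, rfl⟩ : ∃ ν, 0 < ν ∧ γ = ν + 1 / 2 := ⟨γ - 1 / 2, by linarith, by ring⟩
  rw [show ν + 1 / 2 - 1 / 2 = ν by ring, show ν + 1 / 2 + 1 / 2 = ν + 1 by ring,
    show ν + 1 / 2 + 1 = ν + 1 + 1 / 2 by ring, div_rpow hν.le (by linarith),
    ← rpow_natCast, ← rpow_mul hν.le, mul_rpow hν.le (by linarith),
    show ((2 : ℕ) : ℝ) * (ν + 1 / 2) = ν + (ν + 1) by push_cast; ring, rpow_add hν,
    rpow_add (show (0:ℝ) < ν + 1 by linarith) ν 1, rpow_one]
  have := rpow_pos_of_pos hν (ν + 1)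
  have := rpow_pos_of_pos hν ν
  have := rpow_pos_of_pos (show (0:ℝ) < ν + 1 by linarith) ν
  have := Gamma_pos_of_pos (show (0:ℝ) < ν + 1 by linarith)
  have := Gamma_pos_of_pos (show (0:ℝ) < ν + 1 + 1 / 2 by linarith)
  field_simp

/-- `ν (ν + 1) / cosh² x` has the eigenvalue `-ν²`, `ν = γ - 1/2`, and gives the ratio. -/
theorem oneState_mem_ratios {γ : ℝ} (hγ : 1 / 2 < γ) : oneState γ ∈ ratios γ := by
  rw [oneState_eq hγ]
  set ν : ℝ := γ - 1 / 2 with hνdef
  set p : ℝ := γ + 1 / 2 with hpdef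
  have hν : 0 < ν := by rw [hνdef]; linarith
  have hp : p = ν + 1 := by rw [hνdef, hpdef]; ring
  have hp0 : 0 < p := by linarith
  set W : ℝ → ℝ := fun x => ν * p * sechPow 2 x
  have hI : Integrable (sechPow (2 * ν)) := integrable_sechPow (by linarith)
  set I : ℝ := ∫ x, sechPow (2 * ν) x
  have hI0 : 0 < I := (integral_pos_of_integrable_nonneg_nonzero (x := 0) (continuous_sechPow _) hI
    (fun x => (sechPow_pos _ x).le) (sechPow_pos _ 0).ne')
  set c : ℝ := (√I)⁻¹ with hc
  set P : ℝ → ℝ := fun x => c * sechPow ν x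
  set D : ℝ → ℝ := fun x => c * (-ν * (sechPow p x * sinh x))
  have hP : ∀ x, HasDerivAt P (D x) x := fun x => by
    simpa [D, hp] using (hasDerivAt_sechPow ν x).const_mul c
  have hD : ∀ x, HasDerivAt D ((ν ^ 2 - W x) * P x) x := fun x => by
    refine ((((hasDerivAt_sechPow p x).mul (hasDerivAt_sinh x)).const_mul (-ν)).const_mul c).congr_deriv ?_
    have e1 : sechPow (p + 1) x = sechPow 2 x * sechPow ν x := by
      rw [sechPow_mul]; congr 1; rw [hp]; ring
    have e2 : sechPow p x * cosh x = sechPow ν x := by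
      rw [hp, sechPow, sechPow, neg_add, rpow_add (cosh_pos x), rpow_neg_one, mul_assoc,
        inv_mul_cancel₀ (cosh_pos x).ne', mul_one]
    have e3 : sechPow (p + 1) x * cosh x ^ 2 = sechPow ν x := by
      rw [hp, sechPow, sechPow, ← rpow_natCast, ← rpow_add (cosh_pos x)]
      congr 1; push_cast; ring
    have hs : sinh x ^ 2 = cosh x ^ 2 - 1 := by linarith [cosh_sq x]
    simp only [W, P]
    linear_combination (c * ν * p * sechPow (p + 1) x) * hs + (c * ν * p) * e3
      - (c * ν * p) * e1 - (c * ν) * e2 + (c * ν * sechPow ν x) * hp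
  have hPc : Continuous P := continuous_iff_continuousAt.2 fun x => (hP x).continuousAt
  have hDc : Continuous D := continuous_iff_continuousAt.2 fun x => (hD x).continuousAt
  have hWc : Continuous W := continuous_const.mul (continuous_sechPow 2)
  have hDle : ∀ x, |D x| ≤ ν * |P x| := fun x => by
    simp only [D, P, abs_mul, abs_neg, abs_of_pos hν, abs_of_pos (sechPow_pos _ _)]
    have h1 : |sinh x| ≤ cosh x :=
      abs_le_of_sq_le_sq (by linarith [cosh_sq x]) (cosh_pos x).le
    have e2 : sechPow p x * cosh x = sechPow ν x := by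
      rw [hp, sechPow, sechPow, neg_add, rpow_add (cosh_pos x), rpow_neg_one, mul_assoc,
        inv_mul_cancel₀ (cosh_pos x).ne', mul_one]
    rw [← e2]
    have := mul_le_mul_of_nonneg_left h1 (sechPow_pos p x).le
    nlinarith [abs_nonneg c, mul_nonneg (mul_nonneg (abs_nonneg c) hν.le) (sub_nonneg.2 this)]
  have hsq : ∀ x, P x ^ 2 = c ^ 2 * sechPow (2 * ν) x := fun x => by
    simp only [P, mul_pow]; rw [sq (sechPow ν x), sechPow_mul]; ring_nf
  have memLp : ∀ f : ℝ → ℝ, Continuous f → ∀ K : ℝ, (∀ x, |f x| ≤ K * |P x|) →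
      MemLp (fun x => (f x : ℂ)) 2 volume := by
    intro f hf K hK
    refine (memLp_two_iff_integrable_sq_norm
      (Complex.continuous_ofReal.comp hf).aestronglyMeasurable).2 ?_
    refine ((hI.const_mul (c ^ 2)).const_mul (K ^ 2)).mono'
      ((Complex.continuous_ofReal.comp hf).norm.pow 2).aestronglyMeasurable
      (Eventually.of_forall fun x => ?_)
    rw [Real.norm_eq_abs, abs_of_nonneg (sq_nonneg _), Function.comp_apply, Complex.norm_real,
      Real.norm_eq_abs, ← hsq, ← sq_abs (P x), ← mul_pow]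
    exact pow_le_pow_left₀ (abs_nonneg _) (hK x) 2
  set u : ℝ → ℂ := fun x => (P x : ℂ) with hu
  set du : ℝ → ℂ := fun x => (D x : ℂ) with hdu
  have hH1 : MemH1 u du := ⟨memLp P hPc 1 fun x => by rw [one_mul], memLp D hDc ν hDle,
    fun a b => by
      simp only [hu, hdu]
      rw [intervalIntegral.integral_ofReal, intervalIntegral.integral_eq_sub_of_hasDerivAt
        (fun t _ => hP t) (hDc.intervalIntegrable a b), Complex.ofReal_sub]⟩
  have hWp : ∀ x, W x ^ p = (ν * p) ^ p * sechPow (2 * p) x := fun x => by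
    simp only [W]
    rw [mul_rpow (by positivity) (sechPow_pos _ _).le, sechPow, sechPow,
      ← rpow_mul (cosh_pos x).le, neg_mul]
  have hpot : IsPotentialP p W :=
    ⟨hWc.measurable, fun x => mul_nonneg (by positivity) (sechPow_pos _ x).le, by
      simp only [hWp]; exact (integrable_sechPow (by linarith)).const_mul _⟩
  have hint : ∫ x, W x ^ p = (ν * p) ^ p * (√π * Gamma p / Gamma (γ + 1)) := by
    simp only [hWp]
    rw [integral_const_mul, integral_sechPow hp0, show p + 1 / 2 = γ + 1 by rw [hpdef]; ring]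
  have heig : IsEigenfunction W (-ν ^ 2) u := by
    refine ⟨du, hH1, fun φ dφ hφ => ?_⟩
    have hmul : ∀ {f : ℝ → ℂ} {w : ℝ → ℂ}, MemLp f 2 volume → MemLp w 2 volume →
        Integrable (fun x => starRingEnd ℂ (f x) * w x) := fun {f w} hf hw =>
      MemLp.integrable_mul (p := 2) (q := 2) hf.star hw
    have i1 := hmul hφ.2.1 hH1.2.1
    have i2 : Integrable (fun x => ((ν ^ 2 : ℝ) : ℂ) * (starRingEnd ℂ (φ x) * u x)) :=
      (hmul hφ.1 hH1.1).const_mul _
    have i3 : Integrable (fun x => (W x : ℂ) * (starRingEnd ℂ (φ x) * u x)) :=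
      hpot.integrable_mul (by linarith) hφ hH1
    have hwhole : ∫ x, (starRingEnd ℂ (dφ x) * du x +
        (((ν ^ 2 : ℝ) : ℂ) * (starRingEnd ℂ (φ x) * u x) -
          (W x : ℂ) * (starRingEnd ℂ (φ x) * u x))) = 0 := by
      obtain ⟨a, b, ha, hb, hfa, hfb⟩ := exists_seq_small
        ((memLp_two_iff_integrable_sq_norm hφ.1.aestronglyMeasurable).1 hφ.1)
        (fun x => sq_nonneg ‖φ x‖)
      refine tendsto_nhds_unique (intervalIntegral_tendsto_integral (i1.add (i2.sub i3)) ha hb) ?_
      have e : ∀ n, ∫ x in a n..b n, (starRingEnd ℂ (dφ x) * du x +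
          (((ν ^ 2 : ℝ) : ℂ) * (starRingEnd ℂ (φ x) * u x) -
            (W x : ℂ) * (starRingEnd ℂ (φ x) * u x)))
          = starRingEnd ℂ (φ (b n) * (D (b n) : ℂ) - φ (a n) * (D (a n) : ℂ)) := by
        intro n
        rw [← parts_H1 hφ hD ((continuous_const.sub hWc).mul hPc) (a n) (b n),
          ← intervalIntegral.intervalIntegral_conj]
        refine intervalIntegral.integral_congr fun x _ => ?_
        simp only [hu, hdu, map_add, map_mul, Complex.conj_ofReal]
        push_cast
        ring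
      simp only [e]
      rw [← map_zero (starRingEnd ℂ)]
      refine ((Complex.continuous_conj.tendsto _).comp ?_)
      have hlim : ∀ s : ℕ → ℝ, Tendsto (fun n => ‖φ (s n)‖ ^ 2) atTop (𝓝 0) →
          Tendsto (fun n => φ (s n) * (D (s n) : ℂ)) atTop (𝓝 0) := by
        intro s hs
        have h1 : Tendsto (fun n => ‖φ (s n)‖) atTop (𝓝 0) := by simpa [sqrt_sq] using hs.sqrt
        refine squeeze_zero_norm (fun n => ?_) (by simpa using h1.mul_const (ν * |c|))
        rw [norm_mul, Complex.norm_real, Real.norm_eq_abs]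
        refine mul_le_mul_of_nonneg_left ((hDle _).trans (mul_le_mul_of_nonneg_left ?_ hν.le))
          (norm_nonneg _)
        simp only [P, abs_mul, abs_of_pos (sechPow_pos _ _)]
        exact mul_le_of_le_one_right (abs_nonneg _) (sechPow_le_one hν.le _)
      simpa using (hlim b hfb).sub (hlim a hfa)
    rw [integral_add i1 (by exact i2.sub i3), integral_sub i2 i3, integral_const_mul] at hwhole
    push_cast at hwhole ⊢
    linear_combination hwhole
  have hint0 : 0 < ∫ x, W x ^ p := by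
    rw [hint]
    have := Gamma_pos_of_pos hp0
    have := Gamma_pos_of_pos (show 0 < γ + 1 by linarith)
    positivity
  refine ⟨W, 1, fun _ => -ν ^ 2, fun _ => u, hpot, hint0, ⟨fun i =>
    ⟨neg_lt_zero.2 (pow_pos hν 2), heig⟩, fun i j => ?_⟩, ?_⟩
  · rw [if_pos (Subsingleton.elim i j)]
    have e : (fun x => starRingEnd ℂ (u x) * u x) = fun x => ((P x ^ 2 : ℝ) : ℂ) := by
      funext x
      simp only [hu, Complex.conj_ofReal]
      push_cast
      ring
    rw [e, integral_complex_ofReal]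
    simp only [hsq]
    rw [integral_const_mul, hc, inv_pow, sq_sqrt hI0.le, inv_mul_cancel₀ hI0.ne',
      Complex.ofReal_one]
  · rw [hint, Fin.sum_univ_one, abs_neg, abs_of_pos (pow_pos hν 2)]

end Vale.Agent.P371.Gamma
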