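import Vale.Agent.P371.Gamma.Reduce
import Vale.Agent.P371.Gamma.Example

/-!
# P371: a sharp weighted kinetic inequality gives the exact constant
-/

namespace Vale.Agent.P371.Gamma

open Real

/-- With constants calibrated on the one-state ratio, the kinetic inequality gives the exact
constant. -/
theorem isGreatest_of_kinetic {γ A B : ℝ} (hγ : 1 < γ) (hA : 0 < A) (hB : 0 < B)
    (hcal : youngC (γ + 1 / 2) A * (γ * (γ * B / (γ - 1)) ^ (γ - 1)) = oneState γ)
    (hk : KineticP γ A B) : IsGreatest (ratios γ) (oneState γ) := by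
  refine ⟨oneState_mem_ratios (by linarith), fun r hr => ?_⟩
  have h1 : 0 < γ - 1 := by linarith
  have hb : 0 < γ * B / (γ - 1) := div_pos (mul_pos (by linarith) hB) h1
  set b := γ * B / (γ - 1) with hbdef
  set s : ℝ := b ^ (-(γ - 1)) with hsdef
  have hs : 0 < s := rpow_pos_of_pos hb _
  have hval : s - B * s ^ (γ / (γ - 1)) = (γ * b ^ (γ - 1))⁻¹ := by
    rw [hsdef, ← rpow_mul hb.le, show -(γ - 1) * (γ / (γ - 1)) = -(γ - 1) + -1 by field_simp; ring,
      rpow_add hb, rpow_neg_one, rpow_neg hb.le]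
    have := rpow_pos_of_pos hb (γ - 1)
    rw [hbdef] at *
    field_simp
    ring
  have hpos : 0 < s - B * s ^ (γ / (γ - 1)) := by
    rw [hval]; exact inv_pos.2 (mul_pos (by linarith) (rpow_pos_of_pos hb _))
  have := ratio_le_of_kinetic hγ hA hs hk hpos hr
  rwa [hval, div_inv_eq_mul, hcal] at this

end Vale.Agent.P371.Gamma
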