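import Vale.Agent.P371.Gamma.Form

/-!
# P371: from a weighted kinetic inequality to the eigenvalue bound
-/

namespace Vale.Agent.P371.Gamma

open Real MeasureTheory Filter Vale.Agent.P371

/-- The weighted kinetic inequality for orthonormal families, with constants `A` and `B`. -/
def KineticP (γ A B : ℝ) : Prop :=
  ∀ (N : ℕ) (t : Fin N → ℝ) (ψ dψ : Fin N → ℝ → ℂ), (∀ i, 0 < t i) →
    (∀ i, MemH1 (ψ i) (dψ i)) →
    (∀ i j, ∫ x, starRingEnd ℂ (ψ i x) * ψ j x = if i = j then 1 else 0) →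
      Integrable (fun x => (∑ i, t i * ‖ψ i x‖ ^ 2) ^ ((γ + 1 / 2) / (γ - 1 / 2))) ∧
        A * ∫ x, (∑ i, t i * ‖ψ i x‖ ^ 2) ^ ((γ + 1 / 2) / (γ - 1 / 2)) ≤
          (∑ i, t i * ∫ x, ‖dψ i x‖ ^ 2) + B * ∑ i, t i ^ (γ / (γ - 1))

/-- The constant in Young's inequality `w r ≤ youngC p A * w^p + A * r^(p/(p-1))`. -/
noncomputable def youngC (p A : ℝ) : ℝ := (p / (p - 1) * A) ^ (-(p - 1)) / p

lemma young_le {p A w r : ℝ} (hp : 1 < p) (hA : 0 < A) (hw : 0 ≤ w) (hr : 0 ≤ r) :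
    w * r ≤ youngC p A * w ^ p + A * r ^ (p / (p - 1)) := by
  have hq : p.HolderConjugate (p / (p - 1)) := Real.HolderConjugate.conjExponent hp
  set q := p / (p - 1) with hqdef
  have hq0 : 0 < q := div_pos (by linarith) (by linarith)
  set lam := (q * A) ^ (1 / q) with hlam
  have hlam0 : 0 < lam := rpow_pos_of_pos (mul_pos hq0 hA) _
  have h := young_inequality_of_nonneg (div_nonneg hw hlam0.le) (mul_nonneg hlam0.le hr) hq
  have e1 : w / lam * (lam * r) = w * r := by field_simp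
  have e2 : (w / lam) ^ p / p = youngC p A * w ^ p := by
    rw [div_rpow hw hlam0.le, hlam, ← rpow_mul (mul_pos hq0 hA).le, youngC,
      rpow_neg (mul_pos hq0 hA).le, show 1 / q * p = p - 1 by rw [hqdef]; field_simp]
    field_simp
  have e3 : (lam * r) ^ q / q = A * r ^ q := by
    rw [mul_rpow hlam0.le hr, hlam, ← rpow_mul (mul_pos hq0 hA).le, one_div_mul_cancel hq0.ne',
      rpow_one]
    field_simp
  rw [e1, e2, e3] at h
  exact h

lemma neg_eigenvalue_eq {p : ℝ} (hp : 1 ≤ p) {W : ℝ → ℝ} {μ : ℝ} {ψ dψ : ℝ → ℂ}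
    (hW : IsPotentialP p W) (h : MemH1 ψ dψ)
    (he : ∀ φ dφ : ℝ → ℂ, MemH1 φ dφ →
      (∫ x, starRingEnd ℂ (dφ x) * dψ x) - ∫ x, (W x : ℂ) * (starRingEnd ℂ (φ x) * ψ x) =
        (μ : ℂ) * ∫ x, starRingEnd ℂ (φ x) * ψ x)
    (hn : ∫ x, starRingEnd ℂ (ψ x) * ψ x = 1) :
    Integrable (fun x => W x * ‖ψ x‖ ^ 2) ∧
      -μ = (∫ x, W x * ‖ψ x‖ ^ 2) - ∫ x, ‖dψ x‖ ^ 2 := by
  have cast : ∀ x, (W x : ℂ) * (starRingEnd ℂ (ψ x) * ψ x) = ((W x * ‖ψ x‖ ^ 2 : ℝ) : ℂ) := by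
    intro x
    rw [Complex.conj_mul', Complex.ofReal_mul, Complex.ofReal_pow]
  have cast' : ∀ x, starRingEnd ℂ (dψ x) * dψ x = ((‖dψ x‖ ^ 2 : ℝ) : ℂ) := fun x => by
    rw [Complex.conj_mul', Complex.ofReal_pow]
  have hint := hW.integrable_mul hp h h
  simp only [cast] at hint
  refine ⟨by simpa [← Complex.ofReal_pow] using hint.re, ?_⟩
  have e := he ψ dψ h
  simp only [cast, cast', integral_complex_ofReal, hn, mul_one, ← Complex.ofReal_sub] at e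
  linarith [Complex.ofReal_inj.1 e]

/-- Weighting the `i`-th state by `s |μ_i|^(γ-1)` bounds every ratio. -/
theorem ratio_le_of_kinetic {γ A B s : ℝ} (hγ : 1 < γ) (hA : 0 < A) (hs : 0 < s)
    (hk : KineticP γ A B) (hpos' : 0 < s - B * s ^ (γ / (γ - 1))) {r : ℝ} (hr : r ∈ ratios γ) :
    r ≤ youngC (γ + 1 / 2) A / (s - B * s ^ (γ / (γ - 1))) := by
  obtain ⟨W, N, μ, ψ, hW, hpos, ⟨heig, horth⟩, rfl⟩ := hr
  choose dψ hψ heq using fun i => (heig i).2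
  have hp : 1 < γ + 1 / 2 := by linarith
  have hnorm : ∀ i, ∫ x, starRingEnd ℂ (ψ i x) * ψ i x = 1 := fun i => by simpa using horth i i
  have habs : ∀ i, 0 < |μ i| := fun i => abs_pos.2 (heig i).1.ne
  set t : Fin N → ℝ := fun i => s * |μ i| ^ (γ - 1) with ht
  have ht0 : ∀ i, 0 < t i := fun i => mul_pos hs (rpow_pos_of_pos (habs i) _)
  obtain ⟨hq, hkin⟩ := hk N t ψ dψ ht0 hψ horth
  rw [show (γ + 1 / 2) / (γ - 1 / 2) = (γ + 1 / 2) / (γ + 1 / 2 - 1) by ring_nf] at hq hkin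
  have each := fun i => neg_eigenvalue_eq hp.le hW (hψ i) (heq i) (hnorm i)
  have hleft : ∑ i, t i * |μ i| =
      (∫ x, ∑ i, t i * (W x * ‖ψ i x‖ ^ 2)) - ∑ i, t i * ∫ x, ‖dψ i x‖ ^ 2 := by
    rw [integral_finsetSum _ fun i _ => ((each i).1.const_mul _), ← Finset.sum_sub_distrib]
    exact Finset.sum_congr rfl fun i _ => by
      rw [integral_const_mul, abs_of_neg (heig i).1, (each i).2, mul_sub]
  have hmain : (∫ x, ∑ i, t i * (W x * ‖ψ i x‖ ^ 2)) ≤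
      ∫ x, (youngC (γ + 1 / 2) A * W x ^ (γ + 1 / 2) +
        A * (∑ i, t i * ‖ψ i x‖ ^ 2) ^ ((γ + 1 / 2) / (γ + 1 / 2 - 1))) := by
    refine integral_mono (integrable_finsetSum _ fun i _ => (each i).1.const_mul _)
      ((hW.2.2.const_mul _).add (hq.const_mul _)) fun x => ?_
    rw [show (∑ i, t i * (W x * ‖ψ i x‖ ^ 2)) = W x * ∑ i, t i * ‖ψ i x‖ ^ 2 by
      rw [Finset.mul_sum]; exact Finset.sum_congr rfl fun i _ => by ring]
    exact young_le hp hA (hW.2.1 x)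
      (Finset.sum_nonneg fun i _ => mul_nonneg (ht0 i).le (sq_nonneg _))
  rw [integral_add (hW.2.2.const_mul _) (hq.const_mul _), integral_const_mul,
    integral_const_mul] at hmain
  have e1 : ∑ i, t i * |μ i| = s * ∑ i, |μ i| ^ γ := by
    rw [Finset.mul_sum]
    refine Finset.sum_congr rfl fun i _ => ?_
    rw [ht, mul_assoc, ← rpow_add_one (habs i).ne', sub_add_cancel]
  have e2 : ∑ i, t i ^ (γ / (γ - 1)) = s ^ (γ / (γ - 1)) * ∑ i, |μ i| ^ γ := by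
    rw [Finset.mul_sum]
    refine Finset.sum_congr rfl fun i _ => ?_
    rw [ht, mul_rpow hs.le (rpow_nonneg (habs i).le _), ← rpow_mul (habs i).le,
      mul_div_cancel₀ γ (by linarith : γ - 1 ≠ 0)]
  rw [e2] at hkin
  rw [e1] at hleft
  rw [div_le_iff₀ hpos, div_mul_eq_mul_div, le_div_iff₀ hpos']
  linarith

end Vale.Agent.P371.Gamma
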