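import Vale.Agent.P371.Kinetic
import Vale.Agent.P371.Gamma.Reduce

/-!
# P371: a pointwise calibration gives the weighted kinetic inequality
-/

namespace Vale.Agent.P371.Gamma

open MeasureTheory Filter Set Vale.Agent.P371
open scoped InnerProductSpace Topology

variable {N : ℕ}

/-- Symmetric operators with spectrum inside `[δ, T]`. -/
def box (δ T : ℝ) : Set (Op N) :=
  {G | (∀ v w : Vec N, ⟪G v, w⟫_ℂ = ⟪v, G w⟫_ℂ) ∧
    ∀ v : Vec N, δ * ‖v‖ ^ 2 ≤ (⟪v, G v⟫_ℂ).re ∧ (⟪v, G v⟫_ℂ).re ≤ T * ‖v‖ ^ 2}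

/-- Multiplication of the coordinates by real numbers. -/
noncomputable def diagOp (d : Fin N → ℝ) : Op N :=
  ∑ i, (d i : ℂ) • rk (EuclideanSpace.single i (1 : ℂ))

/-- For all regularisations: a locally Lipschitz function of the vector and the accumulated operator,
whose derivative along the flow is at most `‖U'‖² - A ρ^q`, and whose total variation at `U = 0` is
at least `-B ∑ ((δ + t_i)^(γ/(γ-1)) - δ^(γ/(γ-1)))`. -/
def Calibrated (γ A B : ℝ) : Prop :=
  ∀ (N : ℕ) (δ T R : ℝ), 0 < δ → δ ≤ T → 0 ≤ R → ∃ Φ : Vec N → Op N → ℝ,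
    (∃ L : NNReal, LipschitzOnWith L (fun p : Vec N × Op N => Φ p.1 p.2)
      (Metric.closedBall (0 : Vec N) R ×ˢ box δ T)) ∧
    (∀ (U : ℝ → Vec N) (D : Vec N) (G : ℝ → Op N) (x : ℝ), HasDerivAt U D x →
      HasDerivAt G (rk (U x)) x → (∀ y, G y ∈ box δ T ∧ ‖U y‖ ≤ R) →
      ∀ d, HasDerivAt (fun y => Φ (U y) (G y)) d x →
        d ≤ ‖D‖ ^ 2 - A * (‖U x‖ ^ 2) ^ ((γ + 1 / 2) / (γ - 1 / 2))) ∧
    ∀ t : Fin N → ℝ, (∀ i, 0 < t i) → (∀ i, δ + t i ≤ T) →
      -(B * ∑ i, ((δ + t i) ^ (γ / (γ - 1)) - δ ^ (γ / (γ - 1)))) ≤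
        Φ 0 (diagOp fun i => δ + t i) - Φ 0 (diagOp fun _ => δ)

lemma inner_diagOp (d : Fin N → ℝ) (v w : Vec N) :
    ⟪v, diagOp d w⟫_ℂ = ∑ i, (d i : ℂ) * (starRingEnd ℂ (v i) * w i) := by
  rw [diagOp, sum_apply, inner_sum]
  refine Finset.sum_congr rfl fun i _ => ?_
  rw [smul_apply, inner_smul_right, inner_rk_apply, EuclideanSpace.inner_single_right,
    EuclideanSpace.inner_single_left, one_mul, map_one, one_mul]

section flow

variable (t : Fin N → ℝ) {ψ dψ : Fin N → ℝ → ℂ}

/-- The weighted vector of the family. -/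
noncomputable def vecW (ψ : Fin N → ℝ → ℂ) (x : ℝ) : Vec N :=
  WithLp.toLp 2 (fun i => (√(t i) : ℂ) * ψ i x)

/-- The regularised accumulated operator. -/
noncomputable def gramW (δ : ℝ) (ψ : Fin N → ℝ → ℂ) (x : ℝ) : Op N :=
  diagOp (fun _ => δ) + ∫ s in Iic x, rk (vecW t ψ s)

variable {t} (ht : ∀ i, 0 < t i)
include ht

lemma normSq_vecW (ψ : Fin N → ℝ → ℂ) (x : ℝ) :
    ‖vecW t ψ x‖ ^ 2 = ∑ i, t i * ‖ψ i x‖ ^ 2 := by
  rw [EuclideanSpace.norm_sq_eq]
  refine Finset.sum_congr rfl fun i _ => ?_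
  simp [vecW, mul_pow, Real.sq_sqrt (ht i).le]

variable (h : ∀ i, MemH1 (ψ i) (dψ i))
include h

omit ht in
lemma continuous_vecW : Continuous (vecW t ψ) :=
  (PiLp.continuous_toLp 2 _).comp
    (continuous_pi fun i => continuous_const.mul (h i).continuous)

lemma integrable_rk_vecW : Integrable (fun s => rk (vecW t ψ s)) := by
  have : Integrable (fun s => ∑ i, t i * ‖ψ i s‖ ^ 2) :=
    integrable_finsetSum _ fun i _ => (h i).integrable_normSq.const_mul _
  refine this.mono' (continuous_rk.comp (continuous_vecW h)).aestronglyMeasurable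
    (Eventually.of_forall fun s => ?_)
  rw [norm_rk, normSq_vecW ht]

lemma hasDerivAt_gramW (δ x : ℝ) : HasDerivAt (gramW t δ ψ) (rk (vecW t ψ x)) x := by
  have hi := integrable_rk_vecW ht h
  have e : gramW t δ ψ = fun y => gramW t δ ψ 0 + ∫ s in (0:ℝ)..y, rk (vecW t ψ s) := by
    funext y
    rw [← intervalIntegral.integral_Iic_sub_Iic hi.integrableOn hi.integrableOn]
    simp only [gramW]
    abel
  rw [e]
  exact (intervalIntegral.integral_hasDerivAt_right hi.intervalIntegrable
    hi.aestronglyMeasurable.stronglyMeasurableAtFilter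
    (continuous_rk.comp (continuous_vecW h)).continuousAt).const_add _

lemma inner_rk_vecW (v w : Vec N) (s : ℝ) :
    ⟪v, rk (vecW t ψ s) w⟫_ℂ = ∑ i, ∑ j, ((√(t i) : ℂ) * √(t j) * w j * starRingEnd ℂ (v i)) *
      (starRingEnd ℂ (ψ j s) * ψ i s) := by
  rw [inner_rk_apply, PiLp.inner_apply, PiLp.inner_apply, Finset.sum_mul_sum]
  refine Finset.sum_congr rfl fun i _ => Finset.sum_congr rfl fun j _ => ?_
  simp only [vecW, RCLike.inner_apply, map_mul, Complex.conj_ofReal]
  ring

omit ht in
lemma integrable_prod (i j : Fin N) : Integrable (fun s => starRingEnd ℂ (ψ i s) * ψ j s) := by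
  refine ((h i).integrable_normSq.add (h j).integrable_normSq).mono'
    ((Complex.continuous_conj.comp (h i).continuous).mul (h j).continuous).aestronglyMeasurable
    (Eventually.of_forall fun s => ?_)
  rw [norm_mul, RCLike.norm_conj, Pi.add_apply]
  nlinarith [sq_nonneg (‖ψ i s‖ - ‖ψ j s‖), sq_nonneg ‖ψ i s‖, sq_nonneg ‖ψ j s‖]

lemma integral_rk_vecW
    (horth : ∀ i j, ∫ x, starRingEnd ℂ (ψ i x) * ψ j x = if i = j then 1 else 0) :
    ∫ s, rk (vecW t ψ s) = diagOp t := by
  have hi := integrable_rk_vecW ht h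
  refine ContinuousLinearMap.ext fun w => ext_inner_left ℂ fun v => ?_
  rw [ContinuousLinearMap.integral_apply hi,
    ← integral_inner (hi.apply_continuousLinearMap w) v, inner_diagOp]
  simp only [inner_rk_vecW ht h]
  rw [integral_finsetSum _ fun i _ =>
    integrable_finsetSum _ fun j _ => (integrable_prod h j i).const_mul _]
  refine Finset.sum_congr rfl fun i _ => ?_
  rw [integral_finsetSum _ fun j _ => (integrable_prod h j i).const_mul _]
  simp only [integral_const_mul, horth, mul_ite, mul_one, mul_zero, Finset.sum_ite_eq',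
    Finset.mem_univ, if_true]
  rw [← Complex.ofReal_mul, Real.mul_self_sqrt (ht i).le]
  ring

lemma gramW_mem_box
    (horth : ∀ i j, ∫ x, starRingEnd ℂ (ψ i x) * ψ j x = if i = j then 1 else 0)
    {δ T : ℝ} (hT : ∀ i, δ + t i ≤ T) (hδT : δ ≤ T) (x : ℝ) : gramW t δ ψ x ∈ box δ T := by
  have hi := integrable_rk_vecW ht h
  have hvw : ∀ v w : Vec N, Integrable (fun s => ⟪v, rk (vecW t ψ s) w⟫_ℂ) := fun v w =>
    (hi.apply_continuousLinearMap w).const_inner v
  have eval : ∀ v w : Vec N, ⟪v, gramW t δ ψ x w⟫_ℂ =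
      (∑ i, (δ : ℂ) * (starRingEnd ℂ (v i) * w i)) +
        ∫ s in Iic x, ⟪v, rk (vecW t ψ s) w⟫_ℂ := by
    intro v w
    rw [gramW, add_apply, inner_add_right, inner_diagOp,
      ContinuousLinearMap.integral_apply hi.integrableOn,
      ← integral_inner (hi.integrableOn.apply_continuousLinearMap w) v]
  refine ⟨fun v w => ?_, fun v => ?_⟩
  · rw [← inner_conj_symm (gramW t δ ψ x v) w, eval, eval, map_add, map_sum, ← integral_conj]
    congr 1
    · exact Finset.sum_congr rfl fun i _ => by
        simp only [map_mul, Complex.conj_ofReal, Complex.conj_conj]; ring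
    · refine integral_congr_ae (Eventually.of_forall fun s => ?_)
      simp only [inner_rk_apply, map_mul, inner_conj_symm]
      ring
  · have sq : ∀ s, ⟪v, rk (vecW t ψ s) v⟫_ℂ = ((‖⟪vecW t ψ s, v⟫_ℂ‖ ^ 2 : ℝ) : ℂ) := by
      intro s
      rw [inner_rk_apply, ← inner_conj_symm v, mul_comm, Complex.mul_conj', Complex.ofReal_pow]
    have hR : Integrable (fun s => ‖⟪vecW t ψ s, v⟫_ℂ‖ ^ 2) := by
      have h' := (hvw v v).re
      simp only [sq, RCLike.re_to_complex, Complex.ofReal_re] at h'
      exact h'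
    have total : ∫ s, ‖⟪vecW t ψ s, v⟫_ℂ‖ ^ 2 = ∑ i, t i * ‖v i‖ ^ 2 := by
      apply Complex.ofReal_injective
      rw [← integral_complex_ofReal]
      simp only [← sq]
      rw [integral_inner (hi.apply_continuousLinearMap v) v,
        ← ContinuousLinearMap.integral_apply hi, integral_rk_vecW ht h horth, inner_diagOp,
        Complex.ofReal_sum]
      refine Finset.sum_congr rfl fun i _ => ?_
      rw [Complex.conj_mul', Complex.ofReal_mul, Complex.ofReal_pow]
    have re_eq : (⟪v, gramW t δ ψ x v⟫_ℂ).re =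
        δ * ‖v‖ ^ 2 + ∫ s in Iic x, ‖⟪vecW t ψ s, v⟫_ℂ‖ ^ 2 := by
      simp only [eval, sq]
      rw [integral_complex_ofReal, Complex.add_re, Complex.ofReal_re, EuclideanSpace.norm_sq_eq,
        Finset.mul_sum, Complex.re_sum]
      congr 1
      refine Finset.sum_congr rfl fun i _ => ?_
      rw [Complex.conj_mul', ← Complex.ofReal_pow, ← Complex.ofReal_mul, Complex.ofReal_re]
    have lo : 0 ≤ ∫ s in Iic x, ‖⟪vecW t ψ s, v⟫_ℂ‖ ^ 2 :=
      setIntegral_nonneg measurableSet_Iic fun s _ => sq_nonneg _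
    have up : ∫ s in Iic x, ‖⟪vecW t ψ s, v⟫_ℂ‖ ^ 2 ≤ (T - δ) * ‖v‖ ^ 2 := by
      refine (setIntegral_le_integral hR (Eventually.of_forall fun s => sq_nonneg _)).trans ?_
      rw [total, EuclideanSpace.norm_sq_eq, Finset.mul_sum]
      exact Finset.sum_le_sum fun i _ =>
        mul_le_mul_of_nonneg_right (by linarith [hT i]) (sq_nonneg _)
    rw [re_eq]
    constructor <;> nlinarith

end flow

/-- The calibration gives the weighted kinetic inequality. -/
theorem kineticP_of_calibrated {γ A B : ℝ} (hγ : 1 < γ) (hc : Calibrated γ A B) :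
    KineticP γ A B := by
  intro N t ψ dψ ht h horth
  set q : ℝ := (γ + 1 / 2) / (γ - 1 / 2) with hqdef
  set e : ℝ := γ / (γ - 1) with hedef
  have hq : 1 ≤ q := by rw [hqdef, le_div_iff₀ (by linarith)]; linarith
  have he : 0 < e := div_pos (by linarith) (by linarith)
  choose M hM using fun i => (h i).exists_bound
  set R2 : ℝ := ∑ i, t i * M i ^ 2 with hR2
  have hρle : ∀ x, ∑ i, t i * ‖ψ i x‖ ^ 2 ≤ R2 := fun x => Finset.sum_le_sum fun i _ =>
    mul_le_mul_of_nonneg_left (pow_le_pow_left₀ (norm_nonneg _) (hM i x) 2) (ht i).le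
  have hρ0 : ∀ x, 0 ≤ ∑ i, t i * ‖ψ i x‖ ^ 2 := fun x =>
    Finset.sum_nonneg fun i _ => mul_nonneg (ht i).le (sq_nonneg _)
  have hρ : Integrable (fun x => ∑ i, t i * ‖ψ i x‖ ^ 2) :=
    integrable_finsetSum _ fun i _ => (h i).integrable_normSq.const_mul _
  have hρq : Integrable (fun x => (∑ i, t i * ‖ψ i x‖ ^ 2) ^ q) := by
    refine (hρ.const_mul (R2 ^ (q - 1))).mono'
      ((continuous_finsetSum _ fun i _ => continuous_const.mul ((h i).continuous.norm.pow 2)).rpow_const
        fun x => Or.inr (by linarith)).aestronglyMeasurable (Eventually.of_forall fun x => ?_)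
    rw [Real.norm_eq_abs, abs_of_nonneg (Real.rpow_nonneg (hρ0 x) _)]
    calc (∑ i, t i * ‖ψ i x‖ ^ 2) ^ q
        = (∑ i, t i * ‖ψ i x‖ ^ 2) ^ (q - 1) * ∑ i, t i * ‖ψ i x‖ ^ 2 := by
          rw [← Real.rpow_add_one' (hρ0 x) (by linarith), sub_add_cancel]
      _ ≤ _ := mul_le_mul_of_nonneg_right
          (Real.rpow_le_rpow (hρ0 x) (hρle x) (by linarith)) (hρ0 x)
  refine ⟨hρq, ?_⟩
  have main : ∀ δ : ℝ, 0 < δ → A * ∫ x, (∑ i, t i * ‖ψ i x‖ ^ 2) ^ q ≤
      (∑ i, t i * ∫ x, ‖dψ i x‖ ^ 2) + B * ∑ i, ((δ + t i) ^ e - δ ^ e) := by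
    intro δ hδ
    set T : ℝ := δ + ∑ i, t i
    have hT : ∀ i, δ + t i ≤ T := fun i =>
      add_le_add le_rfl (Finset.single_le_sum (fun j _ => (ht j).le) (Finset.mem_univ i))
    have hδT : δ ≤ T := le_add_of_nonneg_right (Finset.sum_nonneg fun i _ => (ht i).le)
    set R : ℝ := √R2
    obtain ⟨Φ, ⟨L, hL⟩, hder, hend⟩ := hc N δ T R hδ hδT (Real.sqrt_nonneg _)
    set U := vecW t ψ with hUdef
    set G := gramW t δ ψ
    set D := vecW t dψ with hDdef
    set F : ℝ → ℝ := fun x => Φ (U x) (G x) with hFdef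
    have dom : ∀ x, G x ∈ box δ T := gramW_mem_box ht h horth hT hδT
    have hUR : ∀ x, ‖U x‖ ≤ R := fun x => Real.le_sqrt_of_sq_le (by
      rw [hUdef, normSq_vecW ht]; exact hρle x)
    have hUae : ∀ᵐ x, HasDerivAt U (D x) x := by
      filter_upwards [ae_all_iff.2 fun i => (h i).ae_hasDerivAt] with x hx
      have hp : HasDerivAt (fun y i => (√(t i) : ℂ) * ψ i y) (fun i => (√(t i) : ℂ) * dψ i x) x :=
        hasDerivAt_pi.2 fun i => (hx i).const_mul _
      exact ((PiLp.continuousLinearEquiv 2 ℝ (fun _ : Fin N => ℂ)).symm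
        |>.toContinuousLinearMap.hasFDerivAt.comp_hasDerivAt x hp)
    have hgU : ∀ x, (‖U x‖ ^ 2) ^ q = (∑ i, t i * ‖ψ i x‖ ^ 2) ^ q := fun x => by
      rw [hUdef, normSq_vecW ht]
    have hi1 : Integrable (fun x => ‖D x‖ ^ 2) := by
      simp only [hDdef, normSq_vecW ht]
      exact integrable_finsetSum _ fun i _ => (h i).integrable_deriv_normSq.const_mul _
    have hi2 : Integrable (fun x => (‖U x‖ ^ 2) ^ q) := by simp only [hgU]; exact hρq
    set g : ℝ → ℝ := fun x => ‖D x‖ ^ 2 - A * (‖U x‖ ^ 2) ^ q with hg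
    have hgi : Integrable g := hi1.sub (hi2.const_mul A)
    have hcomp : ∀ x y, IntervalIntegrable (fun s i => (√(t i) : ℂ) * dψ i s) volume x y :=
      fun x y => intervalIntegrable_iff.2 (Integrable.of_eval fun j =>
        intervalIntegrable_iff.1 (((h j).intervalIntegrable x y).const_mul _))
    set eL := (PiLp.continuousLinearEquiv 2 ℝ (fun _ : Fin N => ℂ)).symm.toContinuousLinearMap
    have hUdiff : ∀ x y : ℝ, U y - U x = ∫ s in x..y, D s := by
      intro x y
      rw [show (∫ s in x..y, D s) = _ from eL.intervalIntegral_comp_comm (hcomp x y)]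
      rw [show (∫ s in x..y, fun i => (√(t i) : ℂ) * dψ i s) =
          fun i => (√(t i) : ℂ) * ψ i y - (√(t i) : ℂ) * ψ i x from ?_]
      · ext i; simp [eL, U, vecW]
      · funext i
        have e := (ContinuousLinearMap.proj (R := ℝ) (φ := fun _ : Fin N => ℂ) i)
          |>.intervalIntegral_comp_comm (hcomp x y)
        simp only [ContinuousLinearMap.proj_apply] at e
        rw [← e, intervalIntegral.integral_const_mul, (h i).2.2 x y]
        ring
    have hnD : ∀ x y, IntervalIntegrable (fun s => ‖D s‖) volume x y := fun x y =>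
      IntervalIntegrable.norm (intervalIntegrable_iff.2
        (eL.integrable_comp (intervalIntegrable_iff.1 (hcomp x y))))
    have hrk := integrable_rk_vecW ht h
    set w : ℝ → ℝ := fun s => (L : ℝ) * (‖D s‖ + ‖rk (U s)‖) with hw
    have hwi : ∀ x y, IntervalIntegrable w volume x y := fun x y =>
      ((hnD x y).add hrk.norm.intervalIntegrable).const_mul _
    have hFlip : ∀ x y : ℝ, x ≤ y → |F y - F x| ≤ ∫ s in x..y, w s := by
      intro x y hxy
      have h1 := hL.dist_le_mul (U y, G y) ⟨mem_closedBall_zero_iff.2 (hUR y), dom y⟩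
        (U x, G x) ⟨mem_closedBall_zero_iff.2 (hUR x), dom x⟩
      have h2 : dist (U y, G y) (U x, G x) ≤ ‖U y - U x‖ + ‖G y - G x‖ := by
        rw [Prod.dist_eq, dist_eq_norm, dist_eq_norm]
        exact max_le (le_add_of_nonneg_right (norm_nonneg _))
          (le_add_of_nonneg_left (norm_nonneg _))
      have h3 : ‖U y - U x‖ ≤ ∫ s in x..y, ‖D s‖ := by
        rw [hUdiff]; exact intervalIntegral.norm_integral_le_integral_norm hxy
      have h4 : ‖G y - G x‖ ≤ ∫ s in x..y, ‖rk (U s)‖ := by
        have : G y - G x = ∫ s in x..y, rk (U s) := by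
          rw [← intervalIntegral.integral_Iic_sub_Iic hrk.integrableOn hrk.integrableOn]
          simp only [G, gramW]; abel
        rw [this]; exact intervalIntegral.norm_integral_le_integral_norm hxy
      rw [Real.dist_eq] at h1
      calc |F y - F x| ≤ (L : ℝ) * dist (U y, G y) (U x, G x) := h1
        _ ≤ (L : ℝ) * ((∫ s in x..y, ‖D s‖) + ∫ s in x..y, ‖rk (U s)‖) :=
            mul_le_mul_of_nonneg_left (h2.trans (add_le_add h3 h4)) L.2
        _ = ∫ s in x..y, w s := by
            rw [hw, intervalIntegral.integral_const_mul,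
              intervalIntegral.integral_add (hnD x y) hrk.norm.intervalIntegrable]
    have step : ∀ a b : ℝ, a ≤ b → F b - F a ≤ ∫ x in a..b, g x := by
      intro a b hab
      have hac : AbsolutelyContinuousOnInterval F a b := by
        refine absolutelyContinuous_of_dist_le
          ((hwi a b).absolutelyContinuousOnInterval_intervalIntegral (c := a) left_mem_uIcc) ?_
        intro x _ y _
        rw [Real.dist_eq, Real.dist_eq,
          intervalIntegral.integral_interval_sub_left (hwi a x) (hwi a y)]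
        rcases le_total y x with hyx | hyx
        · exact (hFlip y x hyx).trans (le_abs_self _)
        · rw [abs_sub_comm, intervalIntegral.integral_symm, abs_neg]
          exact (hFlip x y hyx).trans (le_abs_self _)
      rw [← hac.integral_deriv_eq_sub]
      refine intervalIntegral.integral_mono_ae_restrict hab hac.intervalIntegrable_deriv
        hgi.intervalIntegrable ?_
      rw [EventuallyLE, ae_restrict_iff' measurableSet_Icc]
      filter_upwards [hUae, hac.ae_differentiableAt] with x hx hx' hmem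
      exact hder U (D x) G x hx (hasDerivAt_gramW ht h δ x) (fun y => ⟨dom y, hUR y⟩) _
        (hx' (Icc_subset_uIcc hmem)).hasDerivAt
    obtain ⟨a, b, ha, hb, ha0, hb0⟩ := exists_seq_small
      (F := fun x => ‖U x‖ ^ 2) (by simp only [hUdef, normSq_vecW ht]; exact hρ)
      (fun x => sq_nonneg _)
    have hU0 : ∀ s : ℕ → ℝ, Tendsto (fun n => ‖U (s n)‖ ^ 2) atTop (𝓝 0) →
        Tendsto (fun n => U (s n)) atTop (𝓝 0) := fun s hs => by
      refine tendsto_zero_iff_norm_tendsto_zero.2 ?_
      simpa [Real.sqrt_sq] using hs.sqrt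
    have closedBox : IsClosed (box (N := N) δ T) := by
      have ev : ∀ v : Vec N, Continuous (fun G : Op N => G v) := fun v =>
        (ContinuousLinearMap.apply ℂ (Vec N) v).continuous
      simp only [box, ofPred_and, ofPred_forall]
      refine (isClosed_iInter fun v => isClosed_iInter fun w => ?_).inter
        (isClosed_iInter fun v => ?_)
      · exact isClosed_eq ((ev v).inner continuous_const) (continuous_const.inner (ev w))
      · exact (isClosed_le continuous_const (Complex.continuous_re.comp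
          (continuous_const.inner (ev v)))).inter (isClosed_le (Complex.continuous_re.comp
          (continuous_const.inner (ev v))) continuous_const)
    have hFlim : ∀ (s : ℕ → ℝ) (Gl : Op N), Tendsto (fun n => U (s n)) atTop (𝓝 0) →
        Tendsto (fun n => G (s n)) atTop (𝓝 Gl) → Tendsto (fun n => F (s n)) atTop (𝓝 (Φ 0 Gl)) := by
      intro s Gl hs1 hs2
      have hmem : Gl ∈ box δ T :=
        closedBox.mem_of_tendsto hs2 (Eventually.of_forall fun n => dom _)
      have hc := hL.continuousOn.continuousWithinAt (x := ((0 : Vec N), Gl))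
        ⟨Metric.mem_closedBall_self (Real.sqrt_nonneg _), hmem⟩
      exact hc.tendsto.comp (tendsto_nhdsWithin_iff.2 ⟨hs1.prodMk_nhds hs2,
        Eventually.of_forall fun n => ⟨mem_closedBall_zero_iff.2 (hUR _), dom _⟩⟩)
    have hGa : Tendsto (fun n => G (a n)) atTop (𝓝 (diagOp fun _ => δ)) := by
      have hz := (tendsto_setIntegral_of_antitone (μ := volume) (s := fun x : ℝ => Iic (-x))
        (fun x => measurableSet_Iic) (fun x y hxy => Iic_subset_Iic.2 (neg_le_neg hxy))
        ⟨0, hrk.integrableOn⟩).comp (tendsto_neg_atBot_atTop.comp ha)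
      have e : (⋂ x : ℝ, Iic (-x)) = (∅ : Set ℝ) := eq_empty_of_forall_notMem fun y hy => by
        have := mem_iInter.1 hy (-y + 1); simp at this; linarith
      rw [e, setIntegral_empty] at hz
      simpa [G, gramW, Function.comp_def] using hz.const_add (diagOp fun _ : Fin N => δ)
    have hGb : Tendsto (fun n => G (b n)) atTop (𝓝 (diagOp fun i => δ + t i)) := by
      have hz := (tendsto_setIntegral_of_monotone (μ := volume) (s := fun x : ℝ => Iic x)
        (fun x => measurableSet_Iic) (fun x y hxy => Iic_subset_Iic.2 hxy)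
        hrk.integrableOn).comp hb
      rw [iUnion_Iic, setIntegral_univ, integral_rk_vecW ht h horth] at hz
      have e : (diagOp fun i => δ + t i) = (diagOp fun _ => δ) + diagOp t := by
        rw [diagOp, diagOp, diagOp, ← Finset.sum_add_distrib]
        exact Finset.sum_congr rfl fun i _ => by
          rw [Complex.ofReal_add]
          exact add_smul (δ : ℂ) (t i : ℂ) (rk (EuclideanSpace.single i (1 : ℂ)) : Op N)
      rw [e]
      simpa [G, gramW, Function.comp_def] using hz.const_add (diagOp fun _ : Fin N => δ)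
    have hlim : Tendsto (fun n => (∫ x in a n..b n, g x) - (F (b n) - F (a n))) atTop
        (𝓝 ((∫ x, g x) - (Φ 0 (diagOp fun i => δ + t i) - Φ 0 (diagOp fun _ => δ)))) :=
      (intervalIntegral_tendsto_integral hgi ha hb).sub
        ((hFlim b _ (hU0 b hb0) hGb).sub (hFlim a _ (hU0 a ha0) hGa))
    have hfinal : 0 ≤ (∫ x, g x) - (Φ 0 (diagOp fun i => δ + t i) - Φ 0 (diagOp fun _ => δ)) := by
      refine ge_of_tendsto hlim ?_
      filter_upwards [ha.eventually (eventually_le_atBot 0), hb.eventually (eventually_ge_atTop 0)]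
        with n h1 h2
      linarith [step (a n) (b n) (h1.trans h2)]
    simp only [hg] at hfinal
    rw [integral_sub hi1 (hi2.const_mul A), integral_const_mul] at hfinal
    simp only [hgU, hDdef, normSq_vecW ht] at hfinal
    rw [integral_finsetSum _ fun i _ => (h i).integrable_deriv_normSq.const_mul _] at hfinal
    simp only [integral_const_mul] at hfinal
    linarith [hend t ht hT]
  have e0 : Tendsto (fun n : ℕ => 1 / ((n : ℝ) + 1)) atTop (𝓝 0) :=
    tendsto_one_div_add_atTop_nhds_zero_nat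
  have hcont : Continuous fun δ : ℝ =>
      (∑ i, t i * ∫ x, ‖dψ i x‖ ^ 2) + B * ∑ i, ((δ + t i) ^ e - δ ^ e) := by
    refine continuous_const.add (continuous_const.mul (continuous_finsetSum _ fun i _ => ?_))
    exact ((continuous_id.add continuous_const).rpow_const fun _ => Or.inr he.le).sub
      (continuous_id.rpow_const fun _ => Or.inr he.le)
  have := ge_of_tendsto ((hcont.tendsto 0).comp e0)
    (Eventually.of_forall fun n : ℕ => main _ (by positivity : (0:ℝ) < 1 / ((n : ℝ) + 1)))
  simpa [Real.zero_rpow he.ne'] using this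

end Vale.Agent.P371.Gamma
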