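import Mathlib

/-!
# P371: the integrals of powers of `1 / cosh`
-/

namespace Vale.Agent.P371.Gamma

open Real MeasureTheory

/-- `(1 / cosh x) ^ s`. -/
noncomputable def sechPow (s x : ℝ) : ℝ := cosh x ^ (-s)

lemma sechPow_pos (s x : ℝ) : 0 < sechPow s x := rpow_pos_of_pos (cosh_pos x) _

lemma sechPow_mul (s t x : ℝ) : sechPow s x * sechPow t x = sechPow (s + t) x := by
  rw [sechPow, sechPow, sechPow, ← rpow_add (cosh_pos x), neg_add]

lemma sechPow_le_one {s : ℝ} (hs : 0 ≤ s) (x : ℝ) : sechPow s x ≤ 1 :=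
  rpow_le_one_of_one_le_of_nonpos (one_le_cosh x) (neg_nonpos.2 hs)

lemma continuous_sechPow (s : ℝ) : Continuous (sechPow s) :=
  continuous_cosh.rpow_const fun x => Or.inl (cosh_pos x).ne'

lemma hasDerivAt_sechPow (s x : ℝ) :
    HasDerivAt (sechPow s) (-s * (sechPow (s + 1) x * sinh x)) x := by
  refine ((hasDerivAt_cosh x).rpow_const (Or.inl (cosh_pos x).ne')).congr_deriv ?_
  rw [sechPow, show -(s + 1) = -s - 1 by ring]
  ring

lemma sigmoid_mul_one_sub (x : ℝ) :
    sigmoid (2 * x) * (1 - sigmoid (2 * x)) = (4 * cosh x ^ 2)⁻¹ := by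
  rw [← sigmoid_neg, sigmoid_def, sigmoid_def, neg_neg, ← mul_inv]
  congr 1
  rw [cosh_eq, show 2 * x = x + x by ring, neg_add, exp_add, exp_add]
  have h : exp x * exp (-x) = 1 := by rw [← exp_add, add_neg_cancel, exp_zero]
  field_simp
  linear_combination 4 * (exp x * exp (-x) - 1) * h

lemma sechPow_eq (s x : ℝ) :
    sechPow s x = (4 * (sigmoid (2 * x) * (1 - sigmoid (2 * x)))) ^ (s / 2) := by
  have hc := cosh_pos x
  rw [sigmoid_mul_one_sub, sechPow, mul_inv, ← mul_assoc, mul_inv_cancel₀ (by norm_num), one_mul,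
    inv_rpow (sq_nonneg _), ← rpow_natCast, ← rpow_mul hc.le, ← rpow_neg hc.le]
  congr 1
  push_cast
  ring

lemma image_sigmoid : (fun x : ℝ => sigmoid (2 * x)) '' Set.univ = Set.Ioo 0 1 := by
  rw [Set.image_univ, ← range_sigmoid]
  have hs : Function.Surjective (fun x : ℝ => 2 * x) := fun y => ⟨y / 2, by ring⟩
  exact hs.range_comp sigmoid

lemma deriv_mul_eq {p : ℝ} (x : ℝ) :
    |sigmoid (2 * x) * (1 - sigmoid (2 * x)) * 2| •
      (sigmoid (2 * x) * (1 - sigmoid (2 * x))) ^ (p - 1) = 2 / 4 ^ p * sechPow (2 * p) x := by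
  set u := sigmoid (2 * x) * (1 - sigmoid (2 * x)) with hu
  have h0 : 0 < u := mul_pos (sigmoid_pos _) (sub_pos.2 (sigmoid_lt_one _))
  rw [sechPow_eq, ← hu, mul_div_cancel_left₀ p two_ne_zero, mul_rpow (by norm_num) h0.le,
    smul_eq_mul, abs_of_pos (mul_pos h0 two_pos), rpow_sub_one h0.ne']
  field_simp

lemma hasDerivAt_sigmoid_two (x : ℝ) :
    HasDerivWithinAt (fun x => sigmoid (2 * x)) (sigmoid (2 * x) * (1 - sigmoid (2 * x)) * 2)
      Set.univ x := by
  have := (hasDerivAt_sigmoid (2 * x)).comp x ((hasDerivAt_id x).const_mul (2 : ℝ))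
  simp only [mul_one] at this
  exact this.hasDerivWithinAt

lemma integrable_sechPow {s : ℝ} (hs : 0 < s) : Integrable (sechPow s) := by
  obtain ⟨p, hp, rfl⟩ : ∃ p, 0 < p ∧ s = 2 * p := ⟨s / 2, by linarith, by ring⟩
  have hinj : Set.InjOn (fun x : ℝ => sigmoid (2 * x)) Set.univ :=
    fun x _ y _ h => mul_left_cancel₀ two_ne_zero (sigmoid_injective h)
  have hI : IntegrableOn (fun t : ℝ => (t * (1 - t)) ^ (p - 1)) (Set.Ioo 0 1) := by
    have := (Complex.betaIntegral_convergent (u := (p : ℂ)) (v := (p : ℂ)) (by simpa) (by simpa))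
    rw [intervalIntegrable_iff_integrableOn_Ioo_of_le zero_le_one] at this
    refine IntegrableOn.congr_fun this.norm (fun t ht => ?_) measurableSet_Ioo
    rw [norm_mul, ← Complex.ofReal_one, ← Complex.ofReal_sub, ← Complex.ofReal_sub,
      Complex.norm_cpow_eq_rpow_re_of_pos ht.1,
      Complex.norm_cpow_eq_rpow_re_of_pos (sub_pos.2 ht.2), Complex.ofReal_re,
      mul_rpow ht.1.le (sub_pos.2 ht.2).le]
  rw [← image_sigmoid, integrableOn_image_iff_integrableOn_abs_deriv_smul MeasurableSet.univ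
    (fun x _ => hasDerivAt_sigmoid_two x) hinj, integrableOn_univ] at hI
  refine (hI.const_mul (4 ^ p / 2)).congr (Filter.Eventually.of_forall fun x => ?_)
  simp only [deriv_mul_eq]
  field_simp

lemma integral_sechPow {p : ℝ} (hp : 0 < p) :
    ∫ x, sechPow (2 * p) x = √π * Gamma p / Gamma (p + 1 / 2) := by
  have hinj : Set.InjOn (fun x : ℝ => sigmoid (2 * x)) Set.univ :=
    fun x _ y _ h => mul_left_cancel₀ two_ne_zero (sigmoid_injective h)
  have h := integral_image_eq_integral_abs_deriv_smul MeasurableSet.univ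
    (fun x _ => hasDerivAt_sigmoid_two x) hinj (fun t : ℝ => (t * (1 - t)) ^ (p - 1))
  simp only [image_sigmoid, deriv_mul_eq, setIntegral_univ, integral_const_mul] at h
  have hb : ∫ t in Set.Ioo (0:ℝ) 1, (t * (1 - t)) ^ (p - 1) = Gamma p * Gamma p / Gamma (p + p) := by
    apply Complex.ofReal_injective
    rw [Complex.ofReal_div, Complex.ofReal_mul, ← Complex.Gamma_ofReal, ← Complex.Gamma_ofReal,
      Complex.ofReal_add, ← Complex.betaIntegral_eq_Gamma_mul_div _ _ (by simpa) (by simpa),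
      ← integral_complex_ofReal, Complex.betaIntegral, intervalIntegral.integral_of_le zero_le_one,
      integral_Ioc_eq_integral_Ioo]
    refine setIntegral_congr_fun measurableSet_Ioo fun t ht => ?_
    rw [mul_rpow ht.1.le (sub_pos.2 ht.2).le, Complex.ofReal_mul, Complex.ofReal_cpow ht.1.le,
      Complex.ofReal_cpow (sub_pos.2 ht.2).le]
    push_cast
    ring
  rw [hb] at h
  have hd := Gamma_mul_Gamma_add_half p
  have h4 : (2 : ℝ) ^ (1 - 2 * p) = 2 / 4 ^ p := by
    rw [rpow_sub two_pos, rpow_one, rpow_mul two_pos.le]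
    norm_num
  rw [h4] at hd
  rw [show p + p = 2 * p by ring] at h
  set I := ∫ x, sechPow (2 * p) x
  set A := Gamma p
  set B := Gamma (p + 1 / 2)
  set C := Gamma (2 * p)
  have g1 : 0 < A := Gamma_pos_of_pos hp
  have g2 : 0 < B := Gamma_pos_of_pos (by linarith)
  have g3 : 0 < C := Gamma_pos_of_pos (by linarith)
  have h4p : (0:ℝ) < 4 ^ p := rpow_pos_of_pos (by norm_num) _
  rw [eq_div_iff g2.ne']
  field_simp at h hd ⊢
  refine mul_left_cancel₀ (mul_pos g1 (mul_pos g3 h4p)).ne' ?_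
  linear_combination (C * I) * hd - (√π * C) * h

end Vale.Agent.P371.Gamma
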